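import Vale.Agent.P195.HomY.Value

/-!
# P195: `Hom` of one copy into `Y m`

`m = -(N'+1)`, `N' ≤ N`. An element of `Hom(P_j, Y m)` is a family of values at the generators;
`tr M y g = ∑ h, M g h · y h` is the transpose of a matrix `M` of operator parts. The cocycles in
degrees one and two are coboundaries, and `th` pairs what is left in degrees zero and three.
-/

noncomputable section

namespace Vale.Agent.P195.HomY

open ResR ResR.Gen Res

/-- The transpose of a matrix on values. -/
def tr (m : ℤ) {ι κ : Type} [Fintype κ] {gι : ι → V} {gκ : κ → V}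
    (M : ∀ g h, B (emb (gκ h)) (emb (gι g))) (y : ∀ h, Y m (emb (gκ h))) (g : ι) :
    Y m (emb (gι g)) :=
  ∑ h, yact m (M g h) (y h)

variable {N N' : ℕ} {ι κ : Type} [Fintype ι] [Fintype κ]

/-- Indices of the generators in range at one level. -/
structure Level (N : ℕ) (gen : κ → Gen) (l : ℕ) : Prop where
  valid : ∀ h, (gen h).Valid N
  lev : ∀ h, (gen h).lev = l
  inj : Function.Injective gen
  surj : ∀ g, g.lev = l → g.Valid N → ∃ h, gen h = g

theorem level0 : Level N (gen0 (N := N)) 0 where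
  valid h := by have := h.isLt; simp [gen0, Valid]
  lev h := rfl
  inj h h' e' := by simpa [gen0, Fin.ext_iff] using e'
  surj g hl hv := by
    match g with
    | e i => exact ⟨⟨i - 1, by have := hv.1; have := hv.2; omega⟩, by
        simp only [gen0]; congr 1; have := hv.1; omega⟩
    | r _ | rho _ _ | q _ _ | s _ | t _ => simp [Gen.lev] at hl

theorem level1 : Level N (gen1 (N := N)) 1 where
  valid h := by
    rcases h with i | ⟨j, i⟩ <;> have := i.isLt <;> simp [gen1, Valid] <;> omega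
  lev h := by rcases h with i | ⟨j, i⟩ <;> rfl
  inj h h' e' := by
    rcases h with i | ⟨j, i⟩ <;> rcases h' with i' | ⟨j', i'⟩ <;>
      simp [gen1, Fin.ext_iff] at e' ⊢ <;> exact e'
  surj g hl hv := by
    match g with
    | r i => exact ⟨.inl ⟨i, Nat.lt_succ_of_le hv⟩, rfl⟩
    | rho j i => exact ⟨.inr (j, ⟨i - 1, by have := hv.1; have := hv.2; omega⟩), by
        simp only [gen1]; congr 1; have := hv.1; omega⟩
    | e _ | q _ _ | s _ | t _ => simp [Gen.lev] at hl

theorem level2 : Level N (gen2 (N := N)) 2 where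
  valid h := by
    rcases h with ⟨j, i⟩ | i <;> have := i.isLt <;> simp [gen2, Valid] <;> omega
  lev h := by rcases h with ⟨j, i⟩ | i <;> rfl
  inj h h' e' := by
    rcases h with ⟨j, i⟩ | i <;> rcases h' with ⟨j', i'⟩ | i' <;>
      simp [gen2, Fin.ext_iff] at e' ⊢ <;> exact e'
  surj g hl hv := by
    match g with
    | q j i => exact ⟨.inl (j, ⟨i, Nat.lt_of_succ_le hv⟩), rfl⟩
    | s i => exact ⟨.inr ⟨i - 1, by have := hv.1; have := hv.2; omega⟩, by
        simp only [gen2]; congr 1; have := hv.1; omega⟩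
    | e _ | r _ | rho _ _ | t _ => simp [Gen.lev] at hl

theorem level3 : Level N (gen3 (N := N)) 3 where
  valid h := by have := h.isLt; simp [gen3, Valid]; omega
  lev h := rfl
  inj h h' e' := by simpa [gen3, Fin.ext_iff] using e'
  surj g hl hv := by
    match g with
    | t i => exact ⟨⟨i, by have : i + 2 ≤ N := hv; omega⟩, rfl⟩
    | e _ | r _ | rho _ _ | q _ _ | s _ => simp [Gen.lev] at hl

/-- The family of values, extended by zero. -/
def fam (gen : κ → Gen) (y : ∀ h, Y (nn N') (emb (vV (gen h)))) (g : Gen) : T :=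
  ∑ h, if gen h = g then (y h : T) else 0

variable {gen : κ → Gen} {l : ℕ} {gen' : ι → Gen}

theorem fam_gen (hg : Level N gen l) (y : ∀ h, Y (nn N') (emb (vV (gen h)))) (h : κ) :
    fam gen y (gen h) = y h := by
  rw [fam, Fintype.sum_eq_single h fun h' hh => if_neg fun e' => hh (hg.inj e'), if_pos rfl]

theorem fam_invalid (hg : Level N gen l) (y : ∀ h, Y (nn N') (emb (vV (gen h)))) (g : Gen)
    (h : ¬g.Valid N) : fam gen y g = 0 :=
  Finset.sum_eq_zero fun h' _ => if_neg fun e' : gen h' = g => h (e' ▸ hg.valid h')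

theorem fst_vV (g : Gen) : (emb (vV g)).1 = g.vtx.1 := by rw [Res.emb_vV]

theorem fst_vtx (g : Gen) : g.vtx.1 = 0 ∨ g.vtx.1 = 1 := by cases g <;> simp [vtx]

theorem mem_negSet_iff (g : Gen) (e : ℤ × ℤ) :
    e ∈ negSet (nn N' + (emb (vV g)).1) ↔
      ∃ α : ℕ, 1 ≤ α ∧ α + g.vtx.1.toNat ≤ N' ∧ e = expo N' g.vtx.1 α := by
  rw [fst_vV]
  have := fst_vtx g
  constructor
  · rintro ⟨h1, h2, h3⟩
    refine ⟨(-e.1).toNat, by omega, by simp only [nn] at h3; omega, ?_⟩
    simp only [expo, nn] at *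
    refine Prod.ext ?_ ?_ <;> simp only <;> omega
  · rintro ⟨α, h1, h2, rfl⟩
    simp only [negSet, expo, nn, Set.mem_ofPred_eq]
    omega

theorem rd_fam (hg : Level N gen l) (y : ∀ h, Y (nn N') (emb (vV (gen h)))) :
    Sup N N' (rd N' (fam gen y)) := by
  intro g α hin
  by_cases hv : g.Valid N
  · simp only [rd, fam, Finsupp.finsetSum_apply]
    refine Finset.sum_eq_zero fun h _ => ?_
    split_ifs with e'
    · subst e'
      by_contra hne
      obtain ⟨β, h1, h2, h3⟩ := (mem_negSet_iff _ _).1 ((y h).2 (Finsupp.mem_support_iff.2 hne))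
      have h4 : -(α : ℤ) = -(β : ℤ) := congrArg Prod.fst h3
      exact hin ⟨hv, by omega, by omega⟩
    · rfl
  · show fam gen y g _ = 0
    rw [fam_invalid hg y g hv]
    rfl

/-- Two values agree when their coefficients do. -/
theorem Y_ext {g : Gen} {z z' : Y (nn N') (emb (vV g))}
    (h : ∀ α, 1 ≤ α → α + g.vtx.1.toNat ≤ N' →
      (z : T) (expo N' g.vtx.1 α) = (z' : T) (expo N' g.vtx.1 α)) : z = z' := by
  refine Subtype.ext (Finsupp.ext fun e => ?_)
  by_cases he : e ∈ negSet (nn N' + (emb (vV g)).1)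
  · obtain ⟨α, h1, h2, rfl⟩ := (mem_negSet_iff _ _).1 he
    exact h α h1 h2
  · rw [Finsupp.notMem_support_iff.1 fun hs => he (z.2 hs),
      Finsupp.notMem_support_iff.1 fun hs => he (z'.2 hs)]

theorem ev_fam (y : ∀ h, Y (nn N') (emb (vV (gen h)))) (x : Row) :
    ev (fam gen y) x = ∑ h, x (gen h) (y h : T) := by
  simp only [ev_apply, fam, map_sum, Finsupp.sum]
  rw [Finset.sum_comm]
  refine Finset.sum_congr rfl fun h _ => ?_
  rw [Finset.sum_eq_single (gen h) (fun g _ hg => by rw [if_neg hg.symm, map_zero]) (fun hs => by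
    rw [Finsupp.notMem_support_iff.1 hs]; rfl), if_pos rfl]

omit [Fintype ι] in
/-- The coefficients of a transpose. -/
theorem tr_apply (M : ∀ g h, B (emb (vV (gen h))) (emb (vV (gen' g)))) {row : Gen → Row}
    (hM : ∀ g h, (M g h).1 = row (gen' g) (gen h))
    (y : ∀ h, Y (nn N') (emb (vV (gen h)))) (g : ι) (α : ℕ) (h1 : 1 ≤ α)
    (h2 : α + (gen' g).vtx.1.toNat ≤ N') :
    (tr (nn N') M y g : T) (expo N' (gen' g).vtx.1 α) =
      ev (fam gen y) (row (gen' g)) (expo N' (gen' g).vtx.1 α) := by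
  classical
  simp only [tr, Submodule.coe_sum, Finsupp.finsetSum_apply, ev_fam, yact_apply, trunc_coe, hM]
  exact Finset.sum_congr rfl fun h _ =>
    Finsupp.filter_apply_pos _ _ ((mem_negSet_iff _ _).2 ⟨α, h1, h2, rfl⟩)

omit [Fintype ι] in
theorem tr_dB (hg : Level N gen l) (y : ∀ h, Y (nn N') (emb (vV (gen h)))) (g : ι) (α : ℕ)
    (h1 : 1 ≤ α) (h2 : α + (gen' g).vtx.1.toNat ≤ N') :
    (tr (nn N') (fun g h => dB N (gen' g) (gen h)) y g : T) (expo N' (gen' g).vtx.1 α) =
      D N N' (rd N' (fam gen y)) (gen' g) α := by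
  rw [tr_apply _ (row := dRow N) (fun _ _ => rfl) y g α h1 h2, ev_dRow (fam_invalid hg y) _ _ h1]

omit [Fintype ι] in
theorem coc_of_tr (hg : Level N gen l) (hg' : Level N gen' (l + 1))
    (y : ∀ h, Y (nn N') (emb (vV (gen h))))
    (hy : tr (nn N') (fun g h => dB N (gen' g) (gen h)) y = 0) :
    Coc N N' l (rd N' (fam gen y)) := by
  intro g α hl ⟨hv, h1, h2⟩
  obtain ⟨g', rfl⟩ := hg'.surj g hl hv
  rw [← tr_dB hg y g' α h1 h2, congrFun hy g']
  rfl

open Classical in
/-- Values with given coefficients. -/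
def wr (N' : ℕ) (gen : κ → Gen) (F : Ch) (h : κ) : Y (nn N') (emb (vV (gen h))) :=
  trunc _ _ (∑ α ∈ Finset.range (N' + 1), Finsupp.single (expo N' (gen h).vtx.1 α) (F (gen h) α))

omit [Fintype κ] in
theorem wr_apply (F : Ch) (h : κ) (α : ℕ) (h1 : 1 ≤ α) (h2 : α + (gen h).vtx.1.toNat ≤ N') :
    (wr N' gen F h : T) (expo N' (gen h).vtx.1 α) = F (gen h) α := by
  classical
  simp only [wr, trunc_coe]
  rw [Finsupp.filter_apply_pos _ _ ((mem_negSet_iff _ _).2 ⟨α, h1, h2, rfl⟩),
    Finsupp.finsetSum_apply,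
    Finset.sum_eq_single α (fun β _ hβ => ?_) (fun hh => absurd (Finset.mem_range.2 (by omega)) hh),
    Finsupp.single_eq_same]
  refine Finsupp.single_eq_of_ne fun e' => hβ ?_
  have h4 : -(α : ℤ) = -(β : ℤ) := congrArg Prod.fst e'
  omega

theorem rd_wr (hg : Level N gen l) {F : Ch} (hF : Sup N N' F) {g : Gen} (hl : g.lev = l) :
    rd N' (fam gen (wr N' gen F)) g = F g := by
  funext α
  by_cases hin : In N N' g α
  · obtain ⟨hv, h1, h2⟩ := hin
    obtain ⟨h, rfl⟩ := hg.surj g hl hv
    show fam gen (wr N' gen F) (gen h) _ = _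
    rw [fam_gen hg, wr_apply F h α h1 h2]
  · rw [hF g α hin, rd_fam hg _ g α hin]

/-- A preimage in coefficients gives one in values. -/
theorem exists_of_coeff (hg : Level N gen l) (hg' : Level N gen' (l + 1))
    (y : ∀ g, Y (nn N') (emb (vV (gen' g))))
    (h : ∃ x, Sup N N' x ∧ ∀ g α, g.lev = l + 1 → In N N' g α →
      D N N' x g α = rd N' (fam gen' y) g α) :
    ∃ x, tr (nn N') (fun g h => dB N (gen' g) (gen h)) x = y := by
  obtain ⟨x, hx, hx'⟩ := h
  refine ⟨wr N' gen x, funext fun g => Y_ext fun α h1 h2 => ?_⟩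
  rw [tr_dB hg _ g α h1 h2, D_congr (F' := x) fun g' hg'' => rd_wr hg hx
    (by have := hg'.lev g; omega), hx' _ α (hg'.lev g) ⟨hg'.valid g, h1, h2⟩]
  show fam gen' y (gen' g) _ = _
  rw [fam_gen hg']

/-! ### The statements -/

variable (hN : 3 ≤ N) (hN' : 1 ≤ N') (hle : N' ≤ N) (k : ℕ)
include hN hN' hle

/-- Degree one. -/
theorem hom_one (y : ∀ h : G1 N, Y (nn N') (emb (vg1 h)))
    (hy : tr (nn N') (fun g h => (d2 N k g h).1) y = 0) :
    ∃ x : ∀ h : G0 N, Y (nn N') (emb (vg0 h)), tr (nn N') (fun g h => (d1 N k g h).1) x = y :=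
  exists_of_coeff level0 level1 y
    (exists_one (by omega) hN' hle (rd_fam level1 y) (coc_of_tr level1 level2 y hy))

omit hN' in
/-- Degree two. -/
theorem hom_two (y : ∀ h : G2 N, Y (nn N') (emb (vg2 h)))
    (hy : tr (nn N') (fun g h => (d3 N k g h).1) y = 0) :
    ∃ x : ∀ h : G1 N, Y (nn N') (emb (vg1 h)), tr (nn N') (fun g h => (d2 N k g h).1) x = y :=
  exists_of_coeff level1 level2 y
    (exists_two (by omega) hle (rd_fam level2 y) (coc_of_tr level2 level3 y hy))

omit hN hN' hle in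
theorem tr_th (y : ∀ h : G0 N, Y (nn N') (emb (vg0 h))) (g : G3 N) (α : ℕ) (h1 : 1 ≤ α)
    (h2 : α + (gen3 g).vtx.1.toNat ≤ N') :
    (tr (nn N') (fun g h => (th N k g h).1) y g : T) (expo N' (gen3 g).vtx.1 α) =
      ((k : ℚ) + 1) * thC (rd N' (fam gen0 y)) (gen3 g) α := by
  have e' : tr (nn N') (fun g h => (th N k g h).1) y g =
      ((k : ℚ) + 1) • tr (nn N') (fun g h => thB N (gen3 g) (gen0 h)) y g := by
    simp [tr, th, thArr, Finset.smul_sum]
  rw [e', Submodule.coe_smul, Finsupp.smul_apply, smul_eq_mul,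
    tr_apply _ (row := thRow N) (fun _ _ => rfl) y g α h1 h2, ev_thRow (fam_invalid level0 y)]

omit hN' hle in
/-- `lam` on the image of the diagonal under `th`. -/
theorem lam_thC {F : Ch} {c : ℚ} (hF : ∀ i α, F (e i) α = diag N N c (e i) α) :
    lam N (thC F) = -c := by
  rw [lam, Finset.sum_eq_single 0 (fun i _ hi => by simp [thC, hi])
    (fun h => absurd (Finset.mem_range.2 (by omega)) h)]
  simp only [thC, ↓reduceIte, hF, diag_apply]
  rw [if_pos ⟨le_rfl, by omega, by omega, by omega, trivial⟩]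

/-- Degree zero: a cocycle killed modulo coboundaries by `th` is zero. -/
theorem hom_zero (y : ∀ h : G0 N, Y (nn N') (emb (vg0 h)))
    (hy : tr (nn N') (fun g h => (d1 N (k + 1) g h).1) y = 0)
    (hb : ∃ b : ∀ h : G2 N, Y (nn N') (emb (vg2 h)),
      tr (nn N') (fun g h => (th N k g h).1) y = tr (nn N') (fun g h => (d3 N k g h).1) b) :
    y = 0 := by
  obtain ⟨c, hc, hF⟩ := cocycle_zero (rd_fam level0 y) (by omega) hN'
    (coc_of_tr level0 level1 y hy)
  have hc0 : c = 0 := by
    by_cases hne : N' = N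
    · subst hne
      obtain ⟨b, hb⟩ := hb
      have e' : lam N' (D N' N' (rd N' (fam gen2 b))) =
          ((k : ℚ) + 1) * lam N' (thC (rd N' (fam gen0 y))) := by
        rw [lam, lam, Finset.mul_sum]
        refine Finset.sum_congr rfl fun i hi => ?_
        have hi' := Finset.mem_range.1 hi
        obtain ⟨g, hg⟩ := level3.surj (t i) rfl (show i + 2 ≤ N' by omega)
        have h2 : i + 1 + (gen3 g).vtx.1.toNat ≤ N' := by simp [hg, vtx]; omega
        rw [← hg, ← tr_th k y g (i + 1) (by omega) h2, congrFun hb g]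
        exact (tr_dB level2 b g (i + 1) (by omega) h2).symm
      rw [lam_D (rd_fam level2 b) (by omega) rfl, lam_thC hN hF] at e'
      simpa [show (k : ℚ) + 1 ≠ 0 by positivity] using e'.symm
    · exact hc hne
  refine funext fun g => Y_ext fun α _ _ => ?_
  rw [← fam_gen level0 y g]
  show rd N' (fam gen0 y) (gen0 g) α = 0
  rw [gen0, hF, hc0, diag_apply, ite_self]

omit hN' in
/-- Degree three: coboundaries and the image of the degree zero cocycles under `th`. -/
theorem hom_three (y : ∀ h : G3 N, Y (nn N') (emb (vg3 h))) :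
    ∃ (b : ∀ h : G2 N, Y (nn N') (emb (vg2 h))) (z : ∀ h : G0 N, Y (nn N') (emb (vg0 h))),
      tr (nn N') (fun g h => (d1 N (k + 1) g h).1) z = 0 ∧
      y = tr (nn N') (fun g h => (d3 N k g h).1) b + tr (nn N') (fun g h => (th N k g h).1) z := by
  obtain ⟨c, hc⟩ : ∃ c, c = if N' = N then -lam N (rd N' (fam gen3 y)) / ((k : ℚ) + 1) else 0 :=
    ⟨_, rfl⟩
  set F := diag N N' c with hF
  have hFs : Sup N N' F := ofE_sup (tp_rng _ _ _ _)
  set z := wr N' (gen0 (N := N)) F
  have hz : tr (nn N') (fun g h => (d1 N (k + 1) g h).1) z = 0 := by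
    refine funext fun g => Y_ext fun α h1 h2 => ?_
    refine (tr_dB (gen' := gen1) level0 z g α h1 h2).trans ?_
    rw [D_congr (F' := F) fun g' hg' => rd_wr level0 hFs (by have := level1.lev g; omega)]
    by_cases hne : N' = N
    · exact diag_cocycle c hne _ α (level1.lev g) ⟨level1.valid g, h1, h2⟩
    · rw [hF, show c = 0 by rw [hc, if_neg hne],
        show diag N N' 0 = (0 : ℚ) • diag N N' 0 by
          funext g' β
          match g' with
          | e i => simp [diag_apply]
          | r _ | rho _ _ | q _ _ | s _ | t _ => simp [diag, ofE], D_smul, zero_smul]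
      rfl
  set y' : ∀ h : G3 N, Y (nn N') (emb (vg3 h)) := y - tr (nn N') (fun g h => (th N k g h).1) z
    with hy'
  have hlam : N' = N → lam N (rd N' (fam gen3 y')) = 0 := by
    intro hne
    subst hne
    have e' : lam N' (rd N' (fam gen3 y')) = lam N' (rd N' (fam gen3 y)) -
        ((k : ℚ) + 1) * lam N' (thC (rd N' (fam gen0 z))) := by
      simp only [lam, Finset.mul_sum, ← Finset.sum_sub_distrib]
      refine Finset.sum_congr rfl fun i hi => ?_
      have hi' := Finset.mem_range.1 hi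
      obtain ⟨g, hg⟩ := level3.surj (t i) rfl (show i + 2 ≤ N' by omega)
      have h2 : i + 1 + (gen3 g).vtx.1.toNat ≤ N' := by simp [hg, vtx]; omega
      rw [← hg, ← tr_th k z g (i + 1) (by omega) h2]
      simp only [rd, fam_gen level3, hy', Pi.sub_apply, Submodule.coe_sub, Finsupp.sub_apply]
    rw [e', lam_thC hN (c := c) fun i α => by
      rw [congrFun (rd_wr level0 hFs (g := e i) rfl) α, hF], hc, if_pos rfl]
    field_simp
    ring
  obtain ⟨b, hb⟩ := exists_of_coeff level2 level3 y'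
    (exists_three hN hle hlam)
  exact ⟨b, z, hz, by rw [show tr (nn N') (fun g h => (d3 N k g h).1) b = y' from hb, hy', sub_add_cancel]⟩

end Vale.Agent.P195.HomY
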