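import Vale.Agent.P195.HomY.Column
import Vale.Agent.P195.ResR.Rows

/-!
# P195: one copy of `Hom(P, Y_m)` in coefficients

`n = -(N+1)`, `m = -(N'+1)`. A cochain gives every generator of vertex `(a,b)` the coefficients at
`x^-α y^-(N'+1-a-α)`; `D` is the transpose of `dRow`. For `N' ≤ N` its cohomology is zero in
degrees one and two; it is zero in degrees zero and three unless `N' = N`, when both are lines,
read by `F (e 1) 1` and by `lam`.
-/

namespace Vale.Agent.P195.HomY

open ResR ResR.Gen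

/-- Coefficients at the generators. -/
abbrev Ch : Type := Gen → ℕ → ℚ

variable (N N' : ℕ)

/-- The range of `α` at a generator. -/
def In (g : Gen) (α : ℕ) : Prop := g.Valid N ∧ 1 ≤ α ∧ α + g.vtx.1.toNat ≤ N'

instance (g : Gen) (α : ℕ) : Decidable (In N N' g α) := inferInstanceAs (Decidable (_ ∧ _))

/-- Vanishing outside the range. -/
def Sup (F : Ch) : Prop := ∀ g α, ¬In N N' g α → F g α = 0

/-- Restriction to the range. -/
def cut (F : Ch) : Ch := fun g α => if In N N' g α then F g α else 0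

/-- The transposed differential. -/
def D (F : Ch) : Ch
  | e _, _ => 0
  | r i, α => F (e (i + 1)) (α + 1) - F (e i) α
  | rho 0 i, α => (1 + (i : ℚ) - α) * F (e (i + 1)) α
  | rho 1 i, α => ((α : ℚ) - N') * F (e (i + 1)) (α + 1) + ((N : ℚ) - i) * F (e i) α
  | q 0 i, α => F (rho 0 (i + 1)) (α + 1) - F (rho 0 i) α
      - (1 + (i : ℚ) - α) * F (r (i + 1)) α
      - (if i = 0 then (1 - (α : ℚ)) * F (r 0) (α - 1) else 0)
  | q 1 i, α => F (rho 1 (i + 1)) (α + 1) - F (rho 1 i) α
      - ((α : ℚ) + 1 - N') * F (r (i + 1)) (α + 1) - ((N : ℚ) - i) * F (r i) α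
      - (if i = 0 then ((α : ℚ) - N') * F (r 0) α else 0)
  | s i, α => (1 + (i : ℚ) - α) * F (rho 1 (i + 1)) α
      - ((α : ℚ) - N') * F (rho 0 (i + 1)) (α + 1) - ((N : ℚ) - 1 - i) * F (rho 0 i) α
  | t i, α => F (s (i + 1)) (α + 1) - F (s i) α
      - (1 + (i : ℚ) - α) * F (q 1 (i + 1)) α + ((α : ℚ) + 1 - N') * F (q 0 (i + 1)) (α + 1)
      + ((N : ℚ) - 1 - i) * F (q 0 i) α
      + (if i = 0 then ((α : ℚ) - N') * F (q 0 0) α - (1 - (α : ℚ)) * F (q 1 0) (α - 1) else 0)

/-- Cocycles in level `l`. -/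
def Coc (l : ℕ) (F : Ch) : Prop := ∀ g α, g.lev = l + 1 → In N N' g α → D N N' F g α = 0

/-- The functional on level three when `N' = N`. -/
def lam (F : Ch) : ℚ := ∑ i ∈ Finset.range (N - 1), F (t i) (i + 1)

/-- A cochain on the `e`. -/
def ofE (A : Arr) : Ch
  | e i => A i
  | _ => 0

/-- A cochain on the `rho`. -/
def ofRho (A B : Arr) : Ch
  | rho 0 i => A i
  | rho 1 i => B i
  | _ => 0

/-- A cochain on the `s`. -/
def ofS (A : Arr) : Ch
  | s i => A i
  | _ => 0

/-- The zero cocycle on the `e` when `N' = N`. -/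
def diag (c : ℚ) : Ch := ofE (tp 1 N N' fun k => if k = 0 then c else 0)

variable {N N'}

theorem D_add (F F' : Ch) : D N N' (F + F') = D N N' F + D N N' F' := by
  funext g α
  match g with
  | e _ => simp [D]
  | r i => simp only [D, Pi.add_apply]; ring
  | rho 0 i => simp only [D, Pi.add_apply]; ring
  | rho 1 i => simp only [D, Pi.add_apply]; ring
  | q 0 i => simp only [D, Pi.add_apply]; split_ifs <;> ring
  | q 1 i => simp only [D, Pi.add_apply]; split_ifs <;> ring
  | s i => simp only [D, Pi.add_apply]; ring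
  | t i => simp only [D, Pi.add_apply]; split_ifs <;> ring

theorem D_smul (c : ℚ) (F : Ch) : D N N' (c • F) = c • D N N' F := by
  funext g α
  match g with
  | e _ => simp [D]
  | r i => simp only [D, Pi.smul_apply, smul_eq_mul]; ring
  | rho 0 i => simp only [D, Pi.smul_apply, smul_eq_mul]; ring
  | rho 1 i => simp only [D, Pi.smul_apply, smul_eq_mul]; ring
  | q 0 i => simp only [D, Pi.smul_apply, smul_eq_mul]; split_ifs <;> ring
  | q 1 i => simp only [D, Pi.smul_apply, smul_eq_mul]; split_ifs <;> ring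
  | s i => simp only [D, Pi.smul_apply, smul_eq_mul]; ring
  | t i => simp only [D, Pi.smul_apply, smul_eq_mul]; split_ifs <;> ring

theorem D_sub (F F' : Ch) : D N N' (F - F') = D N N' F - D N N' F' := by
  rw [eq_sub_iff_add_eq, ← D_add, sub_add_cancel]

theorem cut_of_in {F : Ch} {g : Gen} {α : ℕ} (h : In N N' g α) : cut N N' F g α = F g α := if_pos h

theorem cut_of_not_in {F : Ch} {g : Gen} {α : ℕ} (h : ¬In N N' g α) : cut N N' F g α = 0 := if_neg h

theorem cut_sup (F : Ch) : Sup N N' (cut N N' F) := fun _ _ h => if_neg h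

theorem Sup.sub {F F' : Ch} (h : Sup N N' F) (h' : Sup N N' F') : Sup N N' (F - F') :=
  fun g α hg => by simp [h g α hg, h' g α hg]

theorem Sup.add {F F' : Ch} (h : Sup N N' F) (h' : Sup N N' F') : Sup N N' (F + F') :=
  fun g α hg => by simp [h g α hg, h' g α hg]

theorem ofE_sup {A : Arr} (h : Rng 1 N N' A) : Sup N N' (ofE A) := fun g α hg => by
  match g with
  | e i => refine h i α fun h' => hg ?_; obtain ⟨a, b, c, d⟩ := h'; simp [In, Valid, vtx]; omega
  | r _ | rho _ _ | q _ _ | s _ | t _ => rfl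

theorem ofRho_sup {A B : Arr} (hA : Rng 1 (N - 1) N' A) (hB : Rng 1 (N - 1) N' B) :
    Sup N N' (ofRho A B) := fun g α hg => by
  match g with
  | rho 0 i => refine hA i α fun h' => hg ?_; obtain ⟨a, b, c, d⟩ := h'; simp [In, Valid, vtx]; omega
  | rho 1 i => refine hB i α fun h' => hg ?_; obtain ⟨a, b, c, d⟩ := h'; simp [In, Valid, vtx]; omega
  | e _ | r _ | q _ _ | s _ | t _ => rfl

theorem ofS_sup {A : Arr} (h : Rng 1 (N - 2) N' A) : Sup N N' (ofS A) := fun g α hg => by
  match g with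
  | s i => refine h i α fun h' => hg ?_; obtain ⟨a, b, c, d⟩ := h'; simp [In, Valid, vtx]; omega
  | e _ | r _ | rho _ _ | q _ _ | t _ => rfl

section Boundary

variable {F : Ch} (hF : Sup N N' F)
include hF

theorem Sup.e_zero (α : ℕ) : F (e 0) α = 0 :=
  hF _ α fun h => absurd h.1.1 (by omega)

theorem Sup.e_top {i : ℕ} (h : N < i) (α : ℕ) : F (e i) α = 0 :=
  hF _ α fun h' => absurd h'.1.2 (by omega)

theorem Sup.rho_zero (j : Fin 2) (α : ℕ) : F (rho j 0) α = 0 :=
  hF _ α fun h => absurd h.1.1 (by omega)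

theorem Sup.rho_top {i : ℕ} (h : N ≤ i) (j : Fin 2) (α : ℕ) : F (rho j i) α = 0 :=
  hF _ α fun h' => absurd h'.1.2 (by omega)

theorem Sup.q_top {i : ℕ} (h : N ≤ i) (j : Fin 2) (α : ℕ) : F (q j i) α = 0 :=
  hF _ α fun h' => absurd (show i + 1 ≤ N from h'.1) (by omega)

theorem Sup.s_zero (α : ℕ) : F (s 0) α = 0 :=
  hF _ α fun h => absurd h.1.1 (by omega)

theorem Sup.s_top {i : ℕ} (h : N ≤ i + 1) (α : ℕ) : F (s i) α = 0 :=
  hF _ α fun h' => absurd h'.1.2 (by omega)

/-! ### The square is zero -/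

theorem DD₂ : Coc N N' 1 (cut N N' (D N N' F)) := by
  set G := cut N N' (D N N' F) with hG
  have hP : ∀ j i α, 1 ≤ i → i ≤ N → 1 ≤ α → α ≤ N' → G (rho j i) α = D N N' F (rho j i) α := by
    intro j i α h1 h2 h3 h4
    by_cases hi : i < N
    · exact cut_of_in ⟨⟨h1, by omega⟩, h3, by simpa [vtx] using h4⟩
    · rw [hG, cut_of_not_in (fun h => by simp [In, Valid] at h; omega)]
      obtain rfl : i = N := by omega
      fin_cases j <;> simp [D, hF.e_top]
  have hR : ∀ i α, i ≤ N → 1 ≤ α → α < N' → G (r i) α = D N N' F (r i) α := fun i α h1 h2 h3 =>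
    cut_of_in ⟨h1, h2, by simp [vtx]; omega⟩
  have hR₁ : ∀ i α, i ≤ N → 1 ≤ α → α < N' →
      ((α : ℚ) + 1 - N') * G (r i) (α + 1) = ((α : ℚ) + 1 - N') * D N N' F (r i) (α + 1) := by
    intro i α h1 h2 h3
    by_cases h : α + 1 < N'
    · rw [hR i _ h1 (by omega) h]
    · have : ((α : ℚ) + 1 - N') = 0 := by
        rw [← show α + 1 = N' by omega]; push_cast; ring
      simp [this]
  have hR₀ : ∀ α, 1 ≤ α → α < N' →
      (1 - (α : ℚ)) * G (r 0) (α - 1) = (1 - (α : ℚ)) * D N N' F (r 0) (α - 1) := by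
    intro α h2 h3
    by_cases h : α = 1
    · simp [h]
    · rw [hR 0 _ (by omega) (by omega) (by omega)]
  intro g α hl ⟨hv, hα, hα'⟩
  match g with
  | e _ | r _ | rho _ _ | t _ => simp [lev] at hl
  | q 0 i =>
    simp only [Valid, vtx, Int.toNat_one] at hv hα'
    rcases i with _ | i
    · simp only [D, ↓reduceIte]
      rw [hP 0 1 (α + 1) le_rfl (by omega) (by omega) (by omega), hR 1 α (by omega) hα (by omega),
        hR₀ α hα (by omega), show G (rho 0 0) α = 0 from (cut_sup _).rho_zero 0 α]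
      simp only [D, hF.e_zero, Nat.cast_zero, Nat.sub_add_cancel hα]
      push_cast; ring
    · simp only [D, Nat.add_one_ne_zero, ↓reduceIte]
      rw [hP 0 (i + 1 + 1) (α + 1) (by omega) (by omega) (by omega) (by omega),
        hP 0 (i + 1) α (by omega) (by omega) hα (by omega),
        hR (i + 1 + 1) α (by omega) hα (by omega)]
      simp only [D]
      push_cast; ring
  | q 1 i =>
    simp only [Valid, vtx, Int.toNat_one] at hv hα'
    rcases i with _ | i
    · simp only [D, ↓reduceIte]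
      rw [hP 1 1 (α + 1) le_rfl (by omega) (by omega) (by omega),
        hR₁ 1 α (by omega) hα (by omega), hR 0 α (by omega) hα (by omega),
        show G (rho 1 0) α = 0 from (cut_sup _).rho_zero 1 α]
      simp only [D, hF.e_zero]
      push_cast; ring
    · simp only [D, Nat.add_one_ne_zero, ↓reduceIte]
      rw [hP 1 (i + 1 + 1) (α + 1) (by omega) (by omega) (by omega) (by omega),
        hP 1 (i + 1) α (by omega) (by omega) hα (by omega),
        hR₁ (i + 1 + 1) α (by omega) hα (by omega), hR (i + 1) α (by omega) hα (by omega)]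
      simp only [D]
      push_cast; ring
  | s i =>
    simp only [Valid, vtx, Int.toNat_zero, add_zero] at hv hα'
    have hP₁ : ((α : ℚ) - N') * G (rho 0 (i + 1)) (α + 1) =
        ((α : ℚ) - N') * D N N' F (rho 0 (i + 1)) (α + 1) := by
      by_cases h : α < N'
      · rw [hP 0 _ _ (by omega) (by omega) (by omega) (by omega)]
      · simp [show α = N' by omega]
    simp only [D]
    rw [hP 1 (i + 1) α (by omega) (by omega) hα hα', hP₁, hP 0 i α hv.1 (by omega) hα hα']
    simp only [D]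
    push_cast; ring

theorem DD₃ (h0 : ∀ i α, F (r i) α = 0) : Coc N N' 2 (cut N N' (D N N' F)) := by
  set G := cut N N' (D N N' F) with hG
  have hS : ∀ i α, 1 ≤ i → i + 1 ≤ N → 1 ≤ α → α ≤ N' → G (s i) α = D N N' F (s i) α := by
    intro i α h1 h2 h3 h4
    by_cases hi : i + 2 ≤ N
    · exact cut_of_in ⟨⟨h1, hi⟩, h3, by simpa [vtx] using h4⟩
    · rw [hG, cut_of_not_in (fun h => by simp [In, Valid] at h; omega)]
      simp only [D, hF.rho_top (show N ≤ i + 1 by omega)]
      rw [show (N : ℚ) = (i : ℚ) + 1 from by exact_mod_cast (show N = i + 1 by omega)]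
      ring
  have hQ : ∀ j i α, i < N → 1 ≤ α → α < N' → G (q j i) α = D N N' F (q j i) α :=
    fun j i α h1 h2 h3 => cut_of_in ⟨by simp only [Valid]; omega, h2, by simp [vtx]; omega⟩
  intro g α hl ⟨hv, hα, hα'⟩
  match g with
  | e _ | r _ | rho _ _ | q _ _ | s _ => simp [lev] at hl
  | t i =>
    simp only [Valid, vtx, Int.toNat_one] at hv hα'
    have hQ₁ : ((α : ℚ) + 1 - N') * G (q 0 (i + 1)) (α + 1) =
        ((α : ℚ) + 1 - N') * D N N' F (q 0 (i + 1)) (α + 1) := by
      by_cases h : α + 1 < N'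
      · rw [hQ 0 _ _ (by omega) (by omega) h]
      · have : ((α : ℚ) + 1 - N') = 0 := by
          rw [← show α + 1 = N' by omega]; push_cast; ring
        simp [this]
    rcases i with _ | i
    · have hQ₀ : (1 - (α : ℚ)) * G (q 1 0) (α - 1) =
          (1 - (α : ℚ)) * D N N' F (q 1 0) (α - 1) := by
        by_cases h : α = 1
        · simp [h]
        · rw [hQ 1 0 _ (by omega) (by omega) (by omega)]
      simp only [D, ↓reduceIte]
      rw [hS 1 (α + 1) le_rfl (by omega) (by omega) (by omega),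
        hQ 1 1 α (by omega) hα (by omega), hQ₁, hQ 0 0 α (by omega) hα (by omega), hQ₀,
        show G (s 0) α = 0 from (cut_sup _).s_zero α]
      simp only [D, h0, hF.rho_zero, Nat.sub_add_cancel hα]
      push_cast; simp; ring
    · simp only [D, Nat.add_one_ne_zero, ↓reduceIte]
      rw [hS (i + 1 + 1) (α + 1) (by omega) (by omega) (by omega) (by omega),
        hS (i + 1) α (by omega) (by omega) hα (by omega), hQ 1 (i + 1 + 1) α (by omega) hα (by omega),
        hQ₁, hQ 0 (i + 1) α (by omega) hα (by omega)]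
      simp only [D, h0, Nat.add_one_ne_zero, ↓reduceIte]
      push_cast; ring

/-- `lam` kills coboundaries. -/
theorem lam_D (hN : 2 ≤ N) (hNN : N' = N) : lam N (D N N' F) = 0 := by
  subst hNN
  set g : ℕ → ℚ := fun i => ((N' : ℚ) - 1 - i) * F (q 0 i) (i + 1) with hg
  set S' : ℕ → ℚ := fun i => F (s i) (i + 1)
  have e : ∀ i, D N' N' F (t i) (i + 1) =
      (S' (i + 1) - S' i) - (g (i + 1) - g i) - (if i = 0 then g 0 else 0) := by
    intro i
    simp only [D, hg, S']
    split_ifs with h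
    · subst h; push_cast; ring
    · push_cast; ring
  rw [lam, Finset.sum_congr rfl fun i _ => e i, Finset.sum_sub_distrib, Finset.sum_sub_distrib,
    Finset.sum_range_sub, Finset.sum_range_sub, Finset.sum_ite_eq',
    if_pos (Finset.mem_range.2 (show 0 < N' - 1 by omega))]
  have h1 : S' (N' - 1) = 0 := hF.s_top (by omega) _
  have h2 : S' 0 = 0 := hF.s_zero _
  have h3 : g (N' - 1) = 0 := by
    simp only [hg]
    rw [Nat.cast_sub (by omega : 1 ≤ N')]
    push_cast; ring
  rw [h1, h2, h3]; ring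

/-! ### Degree zero -/

theorem cocycle_zero (hN : 2 ≤ N) (hN' : 1 ≤ N') (h : Coc N N' 0 F) :
    ∃ c, (N' ≠ N → c = 0) ∧ ∀ i α, F (e i) α = diag N N' c (e i) α := by
  obtain ⟨p, hp, hpA⟩ := col_ker (M := N) (N' := N') (A := fun i => F (e i))
    (fun i α hi => hF _ α fun h' => hi ⟨h'.1.1, h'.1.2, h'.2.1, by simpa [vtx] using h'.2.2⟩)
    fun i α h1 h2 h3 => h (r i) α rfl ⟨h1, h2, by simp [vtx]; omega⟩
  have hp' : ∀ k, p (k + 1) = 0 := by
    intro k
    by_cases hk : N < k + 1 + N'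
    · exact hp _ hk
    have h2 := h (rho 0 (k + 1)) 1 rfl ⟨⟨by omega, by omega⟩, le_rfl, by simp [vtx]; omega⟩
    simp only [D] at h2
    rw [congrFun (congrFun hpA (k + 1 + 1)) 1, tp, if_pos (by omega),
      show k + 1 + 1 - 1 = k + 1 by omega] at h2
    push_cast at h2
    simpa [show (k : ℚ) + 1 ≠ 0 by positivity] using h2
  refine ⟨p 0, fun hne => ?_, fun i α => ?_⟩
  · have h2 := h (rho 1 1) 1 rfl ⟨⟨le_rfl, by omega⟩, le_rfl, by simp [vtx]; omega⟩
    simp only [D] at h2
    rw [congrFun (congrFun hpA (1 + 1)) (1 + 1), congrFun (congrFun hpA 1) 1] at h2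
    unfold tp at h2
    rw [if_pos (show 1 ≤ 1 ∧ 1 ≤ N ∧ 1 ≤ 1 ∧ 1 ≤ N' ∧ 1 ≤ 1 by omega)] at h2
    have h3 : ((N : ℚ) - N') * p 0 = 0 := by
      by_cases h4 : 2 ≤ N'
      · rw [if_pos (by omega), show 1 + 1 - (1 + 1) = 0 from rfl] at h2
        push_cast at h2
        linear_combination h2
      · rw [if_neg (by omega), show 1 - 1 = 0 from rfl] at h2
        rw [show (N' : ℚ) = 1 from by exact_mod_cast (show N' = 1 by omega)]
        push_cast at h2
        linear_combination h2
    exact (mul_eq_zero.1 h3).resolve_left (sub_ne_zero.2 fun e' => hne (by exact_mod_cast e'.symm))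
  · simp only [diag, ofE]
    rw [congrFun (congrFun hpA i) α]
    unfold tp
    beta_reduce
    by_cases hin : 1 ≤ i ∧ i ≤ N ∧ 1 ≤ α ∧ α ≤ N' ∧ α ≤ i
    · rw [if_pos hin, if_pos hin]
      by_cases hz : i - α = 0
      · rw [hz, if_pos rfl]
      · obtain ⟨k, hk⟩ : ∃ k, i - α = k + 1 := ⟨i - α - 1, by omega⟩
        rw [if_neg hz, hk, hp']
    · rw [if_neg hin, if_neg hin]

end Boundary

theorem diag_apply (c : ℚ) (i α : ℕ) : diag N N' c (e i) α =
    if 1 ≤ i ∧ i ≤ N ∧ 1 ≤ α ∧ α ≤ N' ∧ α = i then c else 0 := by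
  simp only [diag, ofE]
  unfold tp
  by_cases h : 1 ≤ i ∧ i ≤ N ∧ 1 ≤ α ∧ α ≤ N' ∧ α = i
  · rw [if_pos h, if_pos (by omega)]
    exact if_pos (by omega)
  · rw [if_neg h]
    by_cases h1 : 1 ≤ i ∧ i ≤ N ∧ 1 ≤ α ∧ α ≤ N' ∧ α ≤ i
    · rw [if_pos h1]
      exact if_neg (by omega)
    · rw [if_neg h1]

theorem diag_cocycle (c : ℚ) (hNN : N' = N) : Coc N N' 0 (diag N N' c) := by
  subst hNN
  intro g α hl ⟨hv, hα, hα'⟩
  match g with
  | e _ | q _ _ | s _ | t _ => simp [lev] at hl
  | r i =>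
    simp only [Valid, vtx, Int.toNat_one] at hv hα'
    simp only [D, diag_apply]
    split_ifs <;> first | omega | ring
  | rho 0 i =>
    simp only [Valid, vtx, Int.toNat_zero, add_zero] at hv hα'
    simp only [D, diag_apply]
    split_ifs with h
    · rw [h.2.2.2.2]; push_cast; ring
    · ring
  | rho 1 i =>
    simp only [Valid, vtx, Int.toNat_zero, add_zero] at hv hα'
    simp only [D, diag_apply]
    split_ifs with h h' h'
    · rw [h'.2.2.2.2]; ring
    · omega
    · exfalso; omega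
    · ring

end Vale.Agent.P195.HomY
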