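import Mathlib

/-!
# P195: one Kronecker column of `Hom(P, Y_m)`

An array `A i α` stands for `M` inverse forms of degree `-(N'+1)`, given by their coefficients at
`x^-α y^-(N'+1-α)`; the column map is `A ↦ (A (i+1) (α+1) - A i α)`. It is onto unless `N' = M+2`,
when the sum of the `r i (i+1)` is the obstruction; its kernel consists of the Toeplitz arrays
`p (i - α)` with `p` supported in `[0, M - N']`.
-/

namespace Vale.Agent.P195.HomY

/-- Arrays of coefficients. -/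
abbrev Arr : Type := ℕ → ℕ → ℚ

/-- Vanishing outside `lo ≤ i ≤ hi`, `1 ≤ α ≤ d`. -/
def Rng (lo hi d : ℕ) (A : Arr) : Prop :=
  ∀ i α, ¬(lo ≤ i ∧ i ≤ hi ∧ 1 ≤ α ∧ α ≤ d) → A i α = 0

/-- The solution of `A (i+1) (α+1) = r i α + A i α` from zero initial values. -/
def run (r : Arr) : Arr
  | 0, _ => 0
  | i + 1, α => if α ≤ 1 then 0 else r i (α - 1) + run r i (α - 1)

theorem run_succ (r : Arr) (i α : ℕ) (h : 1 ≤ α) : run r (i + 1) (α + 1) = r i α + run r i α := by
  show (if α + 1 ≤ 1 then 0 else r i (α + 1 - 1) + run r i (α + 1 - 1)) = _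
  rw [if_neg (by omega), Nat.add_sub_cancel]

theorem run_diag (r : Arr) (i : ℕ) :
    run r i (i + 1) = ∑ j ∈ Finset.range i, r j (j + 1) := by
  induction i with
  | zero => simp [run]
  | succ i ih => rw [run_succ r i (i + 1) (by omega), ih, Finset.sum_range_succ]; ring

/-- The column map is onto. -/
theorem col_exists {M N' : ℕ} (hM : 1 ≤ M) (hN : N' ≤ M + 2) (r : Arr)
    (hlam : N' = M + 2 → ∑ i ∈ Finset.range (M + 1), r i (i + 1) = 0) :
    ∃ A : Arr, Rng 1 M N' A ∧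
      ∀ i α, i ≤ M → 1 ≤ α → α < N' → A (i + 1) (α + 1) - A i α = r i α := by
  set c : ℕ → ℚ := fun k =>
    if M < k + N' ∧ k < M then -(run r M (M - k) + r M (M - k)) else 0 with hc
  refine ⟨fun i α => if 1 ≤ i ∧ i ≤ M ∧ 1 ≤ α ∧ α ≤ N' then
    run r i α + (if α ≤ i then c (i - α) else 0) else 0, fun i α h => if_neg h,
    fun i α hi hα hα' => ?_⟩
  beta_reduce
  rcases Nat.eq_zero_or_pos i with h0 | h0
  · subst h0
    rw [if_pos (show 1 ≤ 0 + 1 ∧ 0 + 1 ≤ M ∧ 1 ≤ α + 1 ∧ α + 1 ≤ N' by omega),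
      if_neg (show ¬(1 ≤ 0 ∧ 0 ≤ M ∧ 1 ≤ α ∧ α ≤ N') by omega), run_succ r 0 α hα,
      if_neg (show ¬α + 1 ≤ 0 + 1 by omega)]
    simp [run]
  rw [if_pos (show 1 ≤ i ∧ i ≤ M ∧ 1 ≤ α ∧ α ≤ N' by omega)]
  rcases Nat.lt_or_ge i M with hiM | hiM
  · rw [if_pos (show 1 ≤ i + 1 ∧ i + 1 ≤ M ∧ 1 ≤ α + 1 ∧ α + 1 ≤ N' by omega), run_succ r i α hα]
    simp only [Nat.add_le_add_iff_right, Nat.add_sub_add_right]
    ring
  obtain rfl : i = M := by omega
  rw [if_neg (show ¬(1 ≤ i + 1 ∧ i + 1 ≤ i ∧ 1 ≤ α + 1 ∧ α + 1 ≤ N') by omega)]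
  rcases Nat.lt_or_ge i α with hia | hia
  · obtain rfl : α = i + 1 := by omega
    have h := hlam (by omega)
    rw [Finset.sum_range_succ, ← run_diag] at h
    rw [if_neg (show ¬i + 1 ≤ i by omega)]
    linarith
  · rw [if_pos hia, hc]
    simp only
    rw [if_pos (show i < i - α + N' ∧ i - α < i by omega), show i - (i - α) = α by omega]
    ring

/-- Toeplitz arrays. -/
def tp (lo hi d : ℕ) (p : ℕ → ℚ) : Arr := fun i α =>
  if lo ≤ i ∧ i ≤ hi ∧ 1 ≤ α ∧ α ≤ d ∧ α ≤ i then p (i - α) else 0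

theorem tp_rng (lo hi d : ℕ) (p : ℕ → ℚ) : Rng lo hi d (tp lo hi d p) := fun i α h =>
  if_neg fun h' => h ⟨h'.1, h'.2.1, h'.2.2.1, h'.2.2.2.1⟩

/-- The kernel of the column map. -/
theorem col_ker {M N' : ℕ} {A : Arr} (hA : Rng 1 M N' A)
    (h : ∀ i α, i ≤ M → 1 ≤ α → α < N' → A (i + 1) (α + 1) - A i α = 0) :
    ∃ p : ℕ → ℚ, (∀ k, M < k + N' → p k = 0) ∧ A = tp 1 M N' p := by
  refine ⟨fun k => if k + N' ≤ M then A (k + 1) 1 else 0, fun k hk => if_neg (by omega), ?_⟩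
  have key : ∀ α i, 1 ≤ α → α ≤ N' → i ≤ M →
      A i α = if α ≤ i then A (i - α + 1) 1 else 0 := by
    intro α
    induction α with
    | zero => intro i h1; omega
    | succ α ih =>
      intro i _ hα hi
      rcases i with _ | i
      · rw [if_neg (by omega)]
        exact hA _ _ (by omega)
      rcases Nat.eq_zero_or_pos α with h0 | h0
      · subst h0; simp
      rw [sub_eq_zero.1 (h i α (by omega) h0 (by omega)), ih i h0 (by omega) (by omega),
        Nat.add_sub_add_right]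
      simp
  funext i α
  by_cases hin : 1 ≤ i ∧ i ≤ M ∧ 1 ≤ α ∧ α ≤ N'
  · obtain ⟨h1, h2, h3, h4⟩ := hin
    rw [key α i h3 h4 h2]
    unfold tp
    by_cases hai : α ≤ i
    · rw [if_pos hai, if_pos ⟨h1, h2, h3, h4, hai⟩]
      beta_reduce
      rcases Nat.lt_or_ge M (i - α + N') with hk | hk
      · rw [if_neg (by omega)]
        have hend := h M (M - (i - α)) le_rfl (by omega) (by omega)
        rw [hA (M + 1) _ (by omega), zero_sub, neg_eq_zero,
          key _ M (by omega) (by omega) le_rfl, if_pos (by omega)] at hend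
        rwa [show M - (M - (i - α)) = i - α by omega] at hend
      · rw [if_pos hk]
    · rw [if_neg hai, if_neg fun h' => hai h'.2.2.2.2]
  · rw [hA i α hin]
    exact (tp_rng 1 M N' _ i α hin).symm

end Vale.Agent.P195.HomY
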