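import Vale.Agent.P195.HomY.Arrays

/-!
# P195: cohomology of one copy in degrees one to three

Each column is solved by `col_exists`; what is left lies in the kernels of the later columns, which
are polynomials in one variable, where exactness is the Poincaré lemma.
-/

namespace Vale.Agent.P195.HomY

open ResR ResR.Gen

variable {N N' : ℕ} {y : Ch}

theorem rng_of_sup (hy : Sup N N' y) {g : ℕ → Gen} {lo hi d : ℕ}
    (h : ∀ i α, In N N' (g i) α → lo ≤ i ∧ i ≤ hi ∧ 1 ≤ α ∧ α ≤ d) :
    Rng lo hi d fun i => y (g i) := fun i α hh => hy _ α fun hin => hh (h i α hin)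

/-- Cohomology vanishes in degree one. -/
theorem exists_one (hN : 2 ≤ N) (hN' : 1 ≤ N') (hle : N' ≤ N) (hy : Sup N N' y)
    (hc : Coc N N' 1 y) :
    ∃ x, Sup N N' x ∧ ∀ g α, g.lev = 1 → In N N' g α → D N N' x g α = y g α := by
  obtain ⟨E0, hE0, hE0'⟩ := col_exists (M := N) (N' := N') (by omega) (by omega)
    (fun i => y (r i)) (fun h => by omega)
  set x0 := ofE E0 with hx0
  have hx0s : Sup N N' x0 := ofE_sup hE0
  set y' := y - cut N N' (D N N' x0) with hy'
  have hy's : Sup N N' y' := hy.sub (cut_sup _)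
  have hc' : Coc N N' 1 y' := fun g α hl hin => by
    rw [hy', D_sub, Pi.sub_apply, Pi.sub_apply, hc g α hl hin, DD₂ hx0s g α hl hin, sub_zero]
  have hr : ∀ i α, y' (r i) α = 0 := fun i α => by
    by_cases hin : In N N' (r i) α
    · rw [hy', Pi.sub_apply, Pi.sub_apply, cut_of_in hin]
      obtain ⟨hv, hα, hα'⟩ := hin
      simp only [Valid, vtx, Int.toNat_one] at hv hα'
      simp only [D, hx0, ofE]
      rw [hE0' i α hv hα (by omega), sub_self]
    · exact hy's _ α hin
  obtain ⟨u, hu, huA⟩ := col_ker (M := N - 1) (N' := N') (A := fun i => y' (rho 0 i))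
    (rng_of_sup hy's fun i α h => by simp [In, Valid, vtx] at h; omega)
    fun i α hi hα hα' => by
      have := hc' (q 0 i) α rfl ⟨show i + 1 ≤ N by omega, hα, by simp [vtx]; omega⟩
      simpa [D, hr] using this
  obtain ⟨w, hw, hwA⟩ := col_ker (M := N - 1) (N' := N') (A := fun i => y' (rho 1 i))
    (rng_of_sup hy's fun i α h => by simp [In, Valid, vtx] at h; omega)
    fun i α hi hα hα' => by
      have := hc' (q 1 i) α rfl ⟨show i + 1 ≤ N by omega, hα, by simp [vtx]; omega⟩
      simpa [D, hr] using this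
  have hP0 : ∀ i α, y' (rho 0 i) α = tp 1 (N - 1) N' u i α := fun i => congrFun (congrFun huA i)
  have hP1 : ∀ i α, y' (rho 1 i) α = tp 1 (N - 1) N' w i α := fun i => congrFun (congrFun hwA i)
  have closed : ∀ k, k + 2 + N' ≤ N →
      ((k : ℚ) + 1) * w (k + 1) = ((N : ℚ) - N' - 1 - k) * u k := by
    intro k hk
    have h := hc' (s (k + 1)) 1 rfl ⟨⟨by omega, by omega⟩, le_rfl, by simp [vtx]; omega⟩
    simp only [D, hP0, hP1] at h
    rw [tp, if_pos (show 1 ≤ k + 1 + 1 ∧ k + 1 + 1 ≤ N - 1 ∧ 1 ≤ 1 ∧ 1 ≤ N' ∧ 1 ≤ k + 1 + 1 by omega),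
      tp, tp, if_pos (show 1 ≤ k + 1 ∧ k + 1 ≤ N - 1 ∧ 1 ≤ 1 ∧ 1 ≤ N' ∧ 1 ≤ k + 1 by omega),
      show k + 1 + 1 - 1 = k + 1 by omega, show k + 1 - 1 = k by omega] at h
    by_cases h2 : 2 ≤ N'
    · rw [if_pos (by omega), show k + 1 + 1 - (1 + 1) = k by omega] at h
      push_cast at h
      linear_combination h
    · rw [if_neg (by omega)] at h
      rw [show (N' : ℚ) = 1 from by exact_mod_cast (show N' = 1 by omega)] at h ⊢
      push_cast at h
      linear_combination h
  set p : ℕ → ℚ := fun k => match k with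
    | 0 => if N' < N then w 0 / ((N : ℚ) - N') else 0
    | j + 1 => if j + N' < N then u j / ((j : ℚ) + 1) else 0 with hp
  have hpw : ∀ k, w k = ((N : ℚ) - N' - k) * p k := by
    intro k
    rcases k with _ | j
    · simp only [hp, Nat.cast_zero, sub_zero]
      split_ifs with h
      · rw [mul_div_cancel₀]
        exact sub_ne_zero.2 fun e' => absurd (show N = N' by exact_mod_cast e') (by omega)
      · rw [mul_zero, hw 0 (by omega)]
    · simp only [hp]
      split_ifs with h
      · by_cases h2 : j + 2 + N' ≤ N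
        · have := closed j h2
          field_simp
          push_cast
          linear_combination this
        · rw [hw (j + 1) (by omega),
            show (N : ℚ) = (j : ℚ) + 1 + N' from by exact_mod_cast (show N = j + 1 + N' by omega)]
          push_cast; ring
      · rw [mul_zero, hw (j + 1) (by omega)]
  have hpu : ∀ j, u j = ((j : ℚ) + 1) * p (j + 1) := by
    intro j
    simp only [hp]
    split_ifs with h
    · field_simp
    · rw [mul_zero, hu j (by omega)]
  have hp0 : ∀ k, N < k + N' → p k = 0 := by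
    intro k hk
    rcases k with _ | j
    · simp only [hp]; rw [if_neg (by omega)]
    · simp only [hp]; rw [if_neg (by omega)]
  refine ⟨x0 + ofE (tp 1 N N' p), hx0s.add (ofE_sup (tp_rng _ _ _ _)), fun g α hl hin => ?_⟩
  rw [D_add, Pi.add_apply, Pi.add_apply, ← eq_sub_iff_add_eq',
    show y g α - D N N' x0 g α = y' g α by rw [hy', Pi.sub_apply, Pi.sub_apply, cut_of_in hin]]
  obtain ⟨hv, hα, hα'⟩ := hin
  match g with
  | e _ | q _ _ | s _ | t _ => simp [lev] at hl
  | r i =>
    simp only [Valid, vtx, Int.toNat_one] at hv hα'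
    rw [hr]
    simp only [D, ofE, tp]
    by_cases ha : α ≤ i
    · rcases Nat.lt_or_ge i N with h | h
      · rw [if_pos (by omega), if_pos (by omega), Nat.add_sub_add_right, sub_self]
      · rw [if_neg (by omega), if_pos (by omega), hp0 _ (by omega), sub_zero]
    · rw [if_neg (by omega), if_neg (by omega), sub_zero]
  | rho 0 i =>
    simp only [Valid, vtx, Int.toNat_zero, add_zero] at hv hα'
    simp only [D, ofE, hP0, tp]
    by_cases ha : α ≤ i
    · rw [if_pos (by omega), if_pos (by omega), hpu, show i + 1 - α = i - α + 1 by omega,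
        Nat.cast_sub ha]
      ring
    · by_cases hb : α = i + 1
      · subst hb
        rw [if_neg (show ¬(1 ≤ i ∧ i ≤ N - 1 ∧ 1 ≤ i + 1 ∧ i + 1 ≤ N' ∧ i + 1 ≤ i) by omega)]
        push_cast; ring
      · rw [if_neg (by omega), if_neg (by omega), mul_zero]
  | rho 1 i =>
    simp only [Valid, vtx, Int.toNat_zero, add_zero] at hv hα'
    simp only [D, ofE, hP1, tp]
    by_cases ha : α ≤ i
    · rw [if_pos (show 1 ≤ i ∧ i ≤ N ∧ 1 ≤ α ∧ α ≤ N' ∧ α ≤ i by omega),
        if_pos (show 1 ≤ i ∧ i ≤ N - 1 ∧ 1 ≤ α ∧ α ≤ N' ∧ α ≤ i by omega), hpw, Nat.cast_sub ha]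
      by_cases hb : α < N'
      · rw [if_pos (by omega), Nat.add_sub_add_right]
        ring
      · rw [if_neg (by omega), show α = N' by omega]
        ring
    · rw [if_neg (by omega), if_neg (by omega), if_neg (by omega)]
      ring

/-- Cohomology vanishes in degree two. -/
theorem exists_two (hN : 2 ≤ N) (hle : N' ≤ N) (hy : Sup N N' y)
    (hc : Coc N N' 2 y) :
    ∃ x, Sup N N' x ∧ ∀ g α, g.lev = 2 → In N N' g α → D N N' x g α = y g α := by
  obtain ⟨P0, hP0, hP0'⟩ := col_exists (M := N - 1) (N' := N') (by omega) (by omega)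
    (fun i => y (q 0 i)) (fun h => by omega)
  obtain ⟨P1, hP1, hP1'⟩ := col_exists (M := N - 1) (N' := N') (by omega) (by omega)
    (fun i => y (q 1 i)) (fun h => by omega)
  set x0 := ofRho P0 P1 with hx0
  have hx0s : Sup N N' x0 := ofRho_sup hP0 hP1
  set y' := y - cut N N' (D N N' x0) with hy'
  have hy's : Sup N N' y' := hy.sub (cut_sup _)
  have hc' : Coc N N' 2 y' := fun g α hl hin => by
    rw [hy', D_sub, Pi.sub_apply, Pi.sub_apply, hc g α hl hin,
      DD₃ hx0s (fun _ _ => rfl) g α hl hin, sub_zero]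
  have hq : ∀ j i α, y' (q j i) α = 0 := fun j i α => by
    by_cases hin : In N N' (q j i) α
    · rw [hy', Pi.sub_apply, Pi.sub_apply, cut_of_in hin]
      obtain ⟨hv, hα, hα'⟩ := hin
      simp only [Valid, vtx, Int.toNat_one] at hv hα'
      fin_cases j
      · simp [D, hx0, ofRho, hP0' i α (by omega) hα (by omega)]
      · simp [D, hx0, ofRho, hP1' i α (by omega) hα (by omega)]
    · exact hy's _ α hin
  obtain ⟨σ, hσ, hσA⟩ := col_ker (M := N - 2) (N' := N') (A := fun i => y' (s i))
    (rng_of_sup hy's fun i α h => by simp [In, Valid, vtx] at h; omega)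
    fun i α hi hα hα' => by
      have := hc' (t i) α rfl ⟨show i + 2 ≤ N by omega, hα, by simp [vtx]; omega⟩
      simpa [D, hq] using this
  have hS : ∀ i α, y' (s i) α = tp 1 (N - 2) N' σ i α := fun i => congrFun (congrFun hσA i)
  set w : ℕ → ℚ := fun k => match k with
    | 0 => 0
    | j + 1 => σ j / ((j : ℚ) + 1) with hw
  have hw0 : ∀ k, N ≤ k + N' → w k = 0 := by
    intro k hk
    rcases k with _ | j
    · rfl
    · simp only [hw]; rw [hσ j (by omega), zero_div]
  refine ⟨x0 + ofRho 0 (tp 1 (N - 1) N' w),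
    hx0s.add (ofRho_sup (fun _ _ _ => rfl) (tp_rng _ _ _ _)), fun g α hl hin => ?_⟩
  rw [D_add, Pi.add_apply, Pi.add_apply, ← eq_sub_iff_add_eq',
    show y g α - D N N' x0 g α = y' g α by rw [hy', Pi.sub_apply, Pi.sub_apply, cut_of_in hin]]
  obtain ⟨hv, hα, hα'⟩ := hin
  match g with
  | e _ | r _ | rho _ _ | t _ => simp [lev] at hl
  | q 0 i =>
    rw [hq]
    simp [D, ofRho]
  | q 1 i =>
    simp only [Valid, vtx, Int.toNat_one] at hv hα'
    rw [hq]
    simp only [D, ofRho, Pi.zero_apply, mul_zero, ite_self, sub_zero, tp]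
    by_cases ha : α ≤ i
    · rcases Nat.lt_or_ge (i + 1) N with h | h
      · rw [if_pos (by omega), if_pos (by omega), Nat.add_sub_add_right, sub_self]
      · rw [if_neg (by omega), if_pos (by omega), hw0 _ (by omega), sub_zero]
    · rw [if_neg (by omega), if_neg (by omega), sub_zero]
  | s i =>
    simp only [Valid, vtx, Int.toNat_zero, add_zero] at hv hα'
    rw [hS]
    simp only [D, ofRho, Pi.zero_apply, mul_zero, sub_zero, tp]
    by_cases ha : α ≤ i
    · rw [if_pos (by omega), if_pos (by omega), show i + 1 - α = i - α + 1 by omega]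
      simp only [hw]
      rw [Nat.cast_sub ha]
      have : (i : ℚ) - α + 1 ≠ 0 := by
        have : (α : ℚ) ≤ i := by exact_mod_cast ha
        linarith
      field_simp
      ring
    · by_cases hb : α = i + 1
      · subst hb
        rw [if_neg (show ¬(1 ≤ i ∧ i ≤ N - 2 ∧ 1 ≤ i + 1 ∧ i + 1 ≤ N' ∧ i + 1 ≤ i) by omega)]
        push_cast; ring
      · rw [if_neg (by omega), if_neg (by omega), mul_zero]

/-- Cohomology in degree three is at most a line, read by `lam` when `N' = N`. -/
theorem exists_three (hN : 3 ≤ N) (hle : N' ≤ N) (hlam : N' = N → lam N y = 0) :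
    ∃ x, Sup N N' x ∧ ∀ g α, g.lev = 3 → In N N' g α → D N N' x g α = y g α := by
  obtain ⟨S, hS, hS'⟩ := col_exists (M := N - 2) (N' := N') (by omega) (by omega)
    (fun i => y (t i)) fun h => by
      rw [show N - 2 + 1 = N - 1 by omega]
      exact hlam (by omega)
  refine ⟨ofS S, ofS_sup hS, fun g α hl ⟨hv, hα, hα'⟩ => ?_⟩
  match g with
  | e _ | r _ | rho _ _ | q _ _ | s _ => simp [lev] at hl
  | t i =>
    simp only [Valid, vtx, Int.toNat_one] at hv hα'
    simp [D, ofS, hS' i α (by omega) hα (by omega)]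

end Vale.Agent.P195.HomY
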