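import Vale.Agent.P195.HomY.Exact
import Vale.Agent.P195.ResGen

/-!
# P195: coefficients of the transposed matrices

A cochain is a family `Y g` of elements of `T`, zero off the generators in range; `ev Y` pairs it
with rows, and `rd N' Y` reads its coefficients. On rows of `d` the pairing is `D` of the
coefficients.
-/

noncomputable section

namespace Vale.Agent.P195.HomY

open ResR ResR.Gen

/-! ### Values of the operators -/

theorem X₀_apply (z : T) (a b : ℤ) : X₀ z (a, b) = z (a - 1, b) := by
  induction z using Finsupp.induction_linear with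
  | zero => simp
  | add z w hz hw => simp [hz, hw]
  | single e c => simp [X₀_single, Finsupp.single_apply, Prod.ext_iff, eq_sub_iff_add_eq]

theorem X₁_apply (z : T) (a b : ℤ) : X₁ z (a, b) = z (a, b - 1) := by
  induction z using Finsupp.induction_linear with
  | zero => simp
  | add z w hz hw => simp [hz, hw]
  | single e c => simp [X₁_single, Finsupp.single_apply, Prod.ext_iff, eq_sub_iff_add_eq]

theorem D₀_apply (z : T) (a b : ℤ) : D₀ z (a, b) = ((a : ℚ) + 1) * z (a + 1, b) := by
  induction z using Finsupp.induction_linear with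
  | zero => simp
  | add z w hz hw => simp [hz, hw, mul_add]
  | single e c =>
    simp only [D₀_single, Finsupp.single_apply, Prod.ext_iff, sub_eq_iff_eq_add]
    split_ifs with h
    · rw [h.1]; push_cast; ring
    · ring

theorem D₁_apply (z : T) (a b : ℤ) : D₁ z (a, b) = ((b : ℚ) + 1) * z (a, b + 1) := by
  induction z using Finsupp.induction_linear with
  | zero => simp
  | add z w hz hw => simp [hz, hw, mul_add]
  | single e c =>
    simp only [D₁_single, Finsupp.single_apply, Prod.ext_iff, sub_eq_iff_eq_add]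
    split_ifs with h
    · rw [h.2]; push_cast; ring
    · ring

variable {N N' : ℕ}

/-- The exponent with index `α` at first coordinate `a`. -/
def expo (N' : ℕ) (a : ℤ) (α : ℕ) : ℤ × ℤ := (-(α : ℤ), (α : ℤ) + a - (N' + 1))

/-- The coefficients of a family. -/
def rd (N' : ℕ) (Y : Gen → T) : Ch := fun g α => Y g (expo N' g.vtx.1 α)

/-- The pairing of a family with rows. -/
def ev (Y : Gen → T) : Row →ₗ[ℚ] T :=
  Finsupp.lsum ℚ fun g => LinearMap.applyₗ (Y g)

theorem ev_apply (Y : Gen → T) (x : Row) : ev Y x = x.sum fun g c => c (Y g) := by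
  simp only [ev, Finsupp.lsum_apply]; rfl

theorem ev_smul_v {Y : Gen → T} (hY : ∀ g, ¬g.Valid N → Y g = 0) (c : Op) (g : Gen) :
    ev Y (c • v N g) = c (Y g) := by
  unfold v
  split_ifs with h
  · simp [ev_apply, Finsupp.smul_single]
  · simp [hY g h]

theorem ev_v {Y : Gen → T} (hY : ∀ g, ¬g.Valid N → Y g = 0) (g : Gen) : ev Y (v N g) = Y g := by
  simpa using ev_smul_v hY 1 g

/-- The coefficient form of `thRow`. -/
def thC (F : Ch) : Ch
  | t i, α => if i = 0 then -F (e 1) α else 0
  | _, _ => 0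

theorem ev_dRow {Y : Gen → T} (hY : ∀ g, ¬g.Valid N → Y g = 0) (g : Gen) (α : ℕ) (hα : 1 ≤ α) :
    ev Y (dRow N g) (expo N' g.vtx.1 α) = D N N' (rd N' Y) g α := by
  have h1 : ((α - 1 : ℕ) : ℤ) = (α : ℤ) - 1 := by omega
  match g with
  | e _ => simp [dRow, D]
  | r i =>
    simp [dRow, D, ev_smul_v hY, rd, expo, vtx, X₀_apply, X₁_apply]
    ring_nf
  | rho 0 i =>
    simp [dRow, D, ev_smul_v hY, rd, expo, vtx, X₀_apply, D₀_apply]
    ring_nf
  | rho 1 i =>
    simp [dRow, D, ev_smul_v hY, ev_v hY, rd, expo, vtx, X₀_apply, D₁_apply]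
    ring_nf
  | q 0 i =>
    rcases i with _ | i <;>
      simp [dRow, D, ev_smul_v hY, rd, expo, vtx, X₀_apply, X₁_apply, D₀_apply, h1] <;> ring_nf
  | q 1 i =>
    rcases i with _ | i <;>
      simp [dRow, D, ev_smul_v hY, ev_v hY, rd, expo, vtx, X₀_apply, X₁_apply, D₁_apply] <;> ring_nf
  | s i =>
    simp [dRow, D, ev_smul_v hY, ev_v hY, rd, expo, vtx, X₀_apply, D₀_apply, D₁_apply]
    ring_nf
  | t i =>
    rcases i with _ | i <;>
      simp [dRow, D, ev_smul_v hY, ev_v hY, rd, expo, vtx, X₀_apply, X₁_apply, D₀_apply, D₁_apply, h1] <;>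
      ring_nf

theorem ev_thRow {Y : Gen → T} (hY : ∀ g, ¬g.Valid N → Y g = 0) (g : Gen) (α : ℕ) :
    ev Y (thRow N g) (expo N' g.vtx.1 α) = thC (rd N' Y) g α := by
  match g with
  | e _ | r _ | rho _ _ | q _ _ | s _ => simp [thRow, thC]
  | t i =>
    rcases i with _ | i
    · simp [thRow, thC, ev_smul_v hY, rd, expo, vtx, X₁_apply]
      ring_nf
    · simp [thRow, thC]

theorem D_congr {F F' : Ch} {g : Gen} (h : ∀ g', g'.lev + 1 = g.lev → F g' = F' g') :
    D N N' F g = D N N' F' g := by
  funext α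
  match g with
  | e _ => rfl
  | r i | rho 0 i | rho 1 i =>
    simp only [D, h (e _) (by simp [lev])]
  | q 0 i | q 1 i | s i =>
    simp only [D, h (r _) (by simp [lev]), h (rho _ _) (by simp [lev])]
  | t i =>
    simp only [D, h (q _ _) (by simp [lev]), h (s _) (by simp [lev])]

end Vale.Agent.P195.HomY
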