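import Vale.Agent.P195.HomY.Copy
import Vale.Agent.P195.Path

/-!
# P195: `Hom(Y n', Y m) = 0` for `n' < m`

A map is determined at the vertex `(0,0)`, as every vertex is reached from there by a surjective
arrow; its values on the monomials form a cocycle in degree zero, which is zero.
-/

noncomputable section

namespace Vale.Agent.P195.HomY

open ResR ResR.Gen Res

variable {N N' : ℕ}

/-- `eps`, with its values in `Y`. -/
def epsY (N : ℕ) : ∀ h : G0 N, Y (nn N) (emb (vg0 h)) := eps N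

theorem epsY_apply (h : G0 N) : (epsY N h : T) =
    Finsupp.single (-((h.val : ℤ) + 1), -((N : ℤ) - h.val)) 1 := rfl

theorem eps_cocycle (k : ℕ) :
    tr (nn N) (fun g h => (d1 N k g h).1) (epsY N) = 0 := by
  refine funext fun g => Y_ext fun α h1 h2 => ?_
  refine (tr_dB (gen' := gen1) level0 (epsY N) g α h1 h2).trans ?_
  have key : ∀ g', g'.lev + 1 = (gen1 g).lev → rd N (fam gen0 (epsY N)) g' = diag N N 1 g' := by
    intro g' hg'
    have hl : g'.lev = 0 := by have := level1.lev g; omega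
    funext β
    match g' with
    | r _ | rho _ _ | q _ _ | s _ | t _ => simp [Gen.lev] at hl
    | e i =>
      by_cases hin : In N N (e i) β
      · obtain ⟨hv, hb1, hb2⟩ := hin
        obtain ⟨hi1, hi2⟩ := hv
        simp only [vtx, Int.toNat_zero, add_zero] at hb2
        obtain ⟨j, rfl⟩ : ∃ j, i = j + 1 := ⟨i - 1, by omega⟩
        have hf : fam gen0 (epsY N) (e (j + 1)) = _ := fam_gen level0 (epsY N) ⟨j, by omega⟩
        simp only [rd, hf, diag_apply, epsY_apply, Finsupp.single_apply, expo, vtx, Prod.ext_iff]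
        by_cases hb : β = j + 1
        · subst hb
          rw [if_pos (by push_cast; omega), if_pos ⟨hi1, hi2, hb1, hb2, rfl⟩]
        · rw [if_neg (fun hh => hb (by omega)),
            if_neg (show ¬(1 ≤ j + 1 ∧ j + 1 ≤ N ∧ 1 ≤ β ∧ β ≤ N ∧ β = j + 1) from
              fun hh => hb hh.2.2.2.2)]
      · rw [rd_fam level0 _ _ β hin, diag_apply, if_neg]
        rintro ⟨a1, a2, a3, a4, -⟩
        exact hin ⟨⟨a1, a2⟩, a3, by simpa [vtx] using a4⟩
  rw [D_congr key]
  exact diag_cocycle 1 rfl _ α (level1.lev g) ⟨level1.valid g, h1, h2⟩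

theorem mem_F_of_wt_zero_one {k : ℤ} (hk : 0 ≤ k) : (1 : Op) ∈ F 0 k := one_mem' hk

/-- The arrow from `(0,0)` to a vertex that is onto on inverse monomials. -/
def reach (u : V) : B (emb ((0, 0) : V)) (emb u) :=
  ⟨if u.1 = 0 then 1 else X₀, by
    obtain ⟨a, b⟩ := u
    fin_cases a <;> simp [B, wt, od, one_mem', X₀_mem']⟩

theorem reach_surj (n : ℤ) (u : V) (z : Y n (emb u)) : ∃ w, yact n (reach u) w = z := by
  classical
  obtain ⟨a, b⟩ := u
  refine ⟨trunc n _ (Finsupp.mapDomain (fun e : ℤ × ℤ => (e.1 - (a.val : ℤ), e.2)) (z : T)), ?_⟩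
  show trunc n _ ((reach (a, b)).1 (trunc n (emb ((0, 0) : V)) _).1) = z
  apply Subtype.ext
  have hmem : Finsupp.mapDomain (fun e : ℤ × ℤ => (e.1 - (a.val : ℤ), e.2)) (z : T) ∈
      Finsupp.supported ℚ ℚ (negSet (n + (emb ((0, 0) : V)).1)) := by
    intro e he
    obtain ⟨e', he', rfl⟩ := Finset.mem_image.1 (Finsupp.mapDomain_support he)
    obtain ⟨h1, h2, h3⟩ := z.2 he'
    simp only [negSet, Set.mem_ofPred_eq, Fin.val_zero, Nat.cast_zero] at h3 ⊢
    omega
  rw [trunc_coe, trunc_coe, (Finsupp.filter_eq_self_iff _ _).2 fun e he =>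
    hmem (Finsupp.mem_support_iff.2 he)]
  have hX : (reach (a, b)).1 (Finsupp.mapDomain (fun e : ℤ × ℤ => (e.1 - (a.val : ℤ), e.2))
      (z : T)) = z := by
    fin_cases a
    · simp [reach, Finsupp.mapDomain_id, show (fun e : ℤ × ℤ => (e.1, e.2)) = id from rfl]
    · simp [reach, X₀, Finsupp.lmapDomain_apply, ← Finsupp.mapDomain_comp,
        show (fun e : ℤ × ℤ => (e.1 + 1, e.2)) ∘ (fun e : ℤ × ℤ => (e.1 - 1, e.2)) = id from
          funext fun e => by simp, Finsupp.mapDomain_id]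
  rw [hX]
  exact (Finsupp.filter_eq_self_iff _ _).2 fun e he => z.2 (Finsupp.mem_support_iff.2 he)

theorem natural_eq_zero (hN' : 1 ≤ N') (hlt : N' < N)
    (ψ : ∀ v : V, Y (nn N) (emb v) →ₗ[ℚ] Y (nn N') (emb v))
    (nat : ∀ (v w : V) (f : B (emb v) (emb w)) z,
      ψ w (yact (nn N) f z) = yact (nn N') f (ψ v z))
    (u : V) (x : Y (nn N) (emb u)) : ψ u x = 0 := by
  classical
  set y : ∀ h : G0 N, Y (nn N') (emb (vg0 h)) := fun h => ψ (vg0 h) (epsY N h) with hy
  have hcoc : tr (nn N') (fun g h => (d1 N 0 g h).1) y = 0 := by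
    refine funext fun g => ?_
    have e' := congrArg (ψ (vg1 g)) (congrFun (eps_cocycle (N := N) 0) g)
    simp only [Pi.zero_apply, map_zero, tr, map_sum] at e'
    refine Eq.trans ?_ e'
    exact Finset.sum_congr rfl fun h _ => (nat _ _ _ _).symm
  obtain ⟨c, hc, hF⟩ := cocycle_zero (rd_fam level0 y) (by omega) hN'
    (coc_of_tr level0 level1 y hcoc)
  have hy0 : ∀ h, y h = 0 := fun h => Y_ext fun α _ _ => by
    rw [← fam_gen level0 y h]
    show rd N' (fam gen0 y) (gen0 h) α = 0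
    rw [gen0, hF, hc (by omega), diag_apply, ite_self]
  have h00 : ∀ z : Y (nn N) (emb (vV (e 1))), ψ (vV (e 1)) z = 0 := by
    intro z
    let μ : G0 N → Y (nn N) (emb (vV (e 1))) := fun h => ⟨(epsY N h : T), (epsY N h).2⟩
    have hμ : ∀ h, (μ h : T) = Finsupp.single (-((h.val : ℤ) + 1), -((N : ℤ) - h.val)) 1 :=
      fun h => rfl
    have hz : z = ∑ h : G0 N, (z : T) (-((h.val : ℤ) + 1), -((N : ℤ) - h.val)) • μ h := by
      refine Y_ext (g := e 1) fun α h1 h2 => ?_
      simp only [vtx, Int.toNat_zero, add_zero] at h2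
      rw [Submodule.coe_sum, Finsupp.finsetSum_apply, Fintype.sum_eq_single ⟨α - 1, by omega⟩]
      · simp [hμ, expo, vtx, Nat.cast_sub h1]
        ring_nf
        simp
      · intro h hh
        simp only [Submodule.coe_smul, Finsupp.smul_apply, hμ, Finsupp.single_apply, expo,
          vtx, Prod.ext_iff, smul_eq_mul, mul_ite, mul_zero, mul_one]
        rw [if_neg]
        exact fun hc' => hh (Fin.ext (by simp only; omega))
    rw [hz, map_sum]
    exact Finset.sum_eq_zero fun h _ => by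
      rw [map_smul, show ψ (vV (e 1)) (μ h) = 0 from hy0 h, smul_zero]
  obtain ⟨z, rfl⟩ := reach_surj (nn N) u x
  rw [nat, show ψ ((0, 0) : V) z = 0 from h00 z, map_zero]

/-- `Hom(Y n', Y m) = 0` for `n' < m`. -/
theorem hom_vanish (hN' : 1 ≤ N') (hlt : N' < N)
    (φ : P195.Rep.Hom (repY0 (nn N)) (repY0 (nn N'))) (u : V) (x : (repY0 (nn N)).X u) :
    φ.app u x = 0 :=
  natural_eq_zero hN' hlt (fun v => φ.app v)
    (fun v w f z => φ.nat (u := v) (v := w) ((f, 0) : H (emb v) (emb w)) z) u x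

/-- The same over the algebra. -/
theorem hom_vanishA (hN' : 1 ≤ N') (hlt : N' < N)
    (φ : P195.Rep.Hom (repY (nn N)) (repY (nn N'))) (u : V) (x : (repY (nn N)).X u) :
    φ.app u x = 0 :=
  natural_eq_zero hN' hlt (fun v => φ.app v)
    (fun v w f z => φ.nat (u := v) (v := w) (((f, 0), 0) : HA v w) z) u x

end Vale.Agent.P195.HomY
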